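import Vale.Agent.P011.D4.Oct

/-!
Block D4Z (helper63): triality over a field, the companions of the identity, of a reflection and
of a product of two reflections.
-/

namespace Vale.Agent.P011.D4Z.H63

open Vale.Agent.P011.MPQ Vale.Agent.P011.D4 Vale.Agent.P011.D4.Oct

section field

variable {F : Type} [Field F] [NeZero (2 : F)] {a b c : Fˣ}

/-- An element which commutes with every octonion is a scalar. -/
theorem scal_of_comm {p : Oct a b c} (h : ∀ x : Oct a b c, x * p = p * x) :
    ∃ t : F, p = t • 1 := by
  have h2 : (2 : F) ≠ 0 := NeZero.ne 2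
  have ha := a.ne_zero
  have hb := b.ne_zero
  have e1 := h ⟨⟨0, 1, 0, 0⟩, 0⟩
  have e2 := h ⟨⟨0, 0, 1, 0⟩, 0⟩
  have i1 : p.fst.imJ = 0 := by
    have := congrArg (fun z : Oct a b c => z.fst.imK) e1
    simp at this
    have h3 : 2 * p.fst.imJ = 0 := by (first | linear_combination this | linear_combination -this)
    exact (mul_eq_zero.1 h3).resolve_left h2
  have i2 : p.fst.imK = 0 := by
    have := congrArg (fun z : Oct a b c => z.fst.imJ) e1
    simp at this
    have h3 : 2 * (a : F) * p.fst.imK = 0 := by (first | linear_combination this | linear_combination -this)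
    exact (mul_eq_zero.1 h3).resolve_left (mul_ne_zero h2 ha)
  have i3 : p.fst.imI = 0 := by
    have := congrArg (fun z : Oct a b c => z.fst.imK) e2
    simp at this
    have h3 : 2 * p.fst.imI = 0 := by linear_combination -this
    exact (mul_eq_zero.1 h3).resolve_left h2
  have s1 : p.snd.re = 0 := by
    have := congrArg (fun z : Oct a b c => z.snd.imI) e1
    simp at this
    have h3 : 2 * p.snd.re = 0 := by (first | linear_combination this | linear_combination -this)
    exact (mul_eq_zero.1 h3).resolve_left h2
  have s2 : p.snd.imI = 0 := by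
    have := congrArg (fun z : Oct a b c => z.snd.re) e1
    simp at this
    have h3 : 2 * (a : F) * p.snd.imI = 0 := by (first | linear_combination this | linear_combination -this)
    exact (mul_eq_zero.1 h3).resolve_left (mul_ne_zero h2 ha)
  have s3 : p.snd.imJ = 0 := by
    have := congrArg (fun z : Oct a b c => z.snd.re) e2
    simp at this
    have h3 : 2 * (b : F) * p.snd.imJ = 0 := by (first | linear_combination this | linear_combination -this)
    exact (mul_eq_zero.1 h3).resolve_left (mul_ne_zero h2 hb)
  have s4 : p.snd.imK = 0 := by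
    have := congrArg (fun z : Oct a b c => z.snd.imJ) e1
    simp at this
    have h3 : 2 * (a : F) * p.snd.imK = 0 := by (first | linear_combination this | linear_combination -this)
    exact (mul_eq_zero.1 h3).resolve_left (mul_ne_zero h2 ha)
  refine ⟨p.fst.re, ext8 ?_ ?_ ?_ ?_ ?_ ?_ ?_ ?_⟩ <;> simp [i1, i2, i3, s1, s2, s3, s4]

/-- An element of the nucleus is a scalar. -/
theorem scal_of_nuc {p : Oct a b c} (h : ∀ x y : Oct a b c, (x * p) * y = x * (p * y)) :
    ∃ t : F, p = t • 1 := by
  have h2 : (2 : F) ≠ 0 := NeZero.ne 2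
  have ha := a.ne_zero
  have hb := b.ne_zero
  have e1 := h ⟨⟨0, 1, 0, 0⟩, 0⟩ ⟨⟨0, 0, 1, 0⟩, 0⟩
  have e2 := h ⟨0, 1⟩ ⟨⟨0, 1, 0, 0⟩, 0⟩
  have e3 := h ⟨0, 1⟩ ⟨⟨0, 0, 1, 0⟩, 0⟩
  have s1 : p.snd.re = 0 := by
    have := congrArg (fun z : Oct a b c => z.snd.imK) e1
    simp at this
    have h3 : 2 * p.snd.re = 0 := by (first | linear_combination this | linear_combination -this)
    exact (mul_eq_zero.1 h3).resolve_left h2
  have s2 : p.snd.imI = 0 := by
    have := congrArg (fun z : Oct a b c => z.snd.imJ) e1
    simp at this
    have h3 : 2 * (a : F) * p.snd.imI = 0 := by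
      (first | linear_combination this | linear_combination -this)
    exact (mul_eq_zero.1 h3).resolve_left (mul_ne_zero h2 ha)
  have s3 : p.snd.imJ = 0 := by
    have := congrArg (fun z : Oct a b c => z.snd.imI) e1
    simp at this
    have h3 : 2 * (b : F) * p.snd.imJ = 0 := by
      (first | linear_combination this | linear_combination -this)
    exact (mul_eq_zero.1 h3).resolve_left (mul_ne_zero h2 hb)
  have s4 : p.snd.imK = 0 := by
    have := congrArg (fun z : Oct a b c => z.snd.re) e1
    simp at this
    have h3 : 2 * (a : F) * (b : F) * p.snd.imK = 0 := by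
      (first | linear_combination this | linear_combination -this)
    exact (mul_eq_zero.1 h3).resolve_left (mul_ne_zero (mul_ne_zero h2 ha) hb)
  have i1 : p.fst.imJ = 0 := by
    have := congrArg (fun z : Oct a b c => z.snd.imK) e2
    simp at this
    have h3 : 2 * p.fst.imJ = 0 := by (first | linear_combination this | linear_combination -this)
    exact (mul_eq_zero.1 h3).resolve_left h2
  have i2 : p.fst.imK = 0 := by
    have := congrArg (fun z : Oct a b c => z.snd.imJ) e2
    simp at this
    have h3 : 2 * (a : F) * p.fst.imK = 0 := by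
      (first | linear_combination this | linear_combination -this)
    exact (mul_eq_zero.1 h3).resolve_left (mul_ne_zero h2 ha)
  have i3 : p.fst.imI = 0 := by
    have := congrArg (fun z : Oct a b c => z.snd.imK) e3
    simp at this
    have h3 : 2 * p.fst.imI = 0 := by (first | linear_combination this | linear_combination -this)
    exact (mul_eq_zero.1 h3).resolve_left h2
  refine ⟨p.fst.re, ext8 ?_ ?_ ?_ ?_ ?_ ?_ ?_ ?_⟩ <;> simp [i1, i2, i3, s1, s2, s3, s4]

theorem norm_ne_of_mul {p r : Oct a b c} (h : p * r = 1) : norm p ≠ 0 ∧ r = (norm p)⁻¹ • star p := by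
  have h1 : norm p * norm r = 1 := by rw [← Oct.norm_mul, h, Oct.norm_one]
  have h0 : norm p ≠ 0 := left_ne_zero_of_mul_eq_one h1
  refine ⟨h0, ?_⟩
  have h2 := star_mul_mul p r
  rw [h, mul_one] at h2
  rw [h2, smul_smul, inv_mul_cancel₀ h0, one_smul]

/-- **The companions of the identity.** -/
theorem comp_one {f g : Oct a b c → Oct a b c}
    (h : ∀ u v, star (f u) * star (g v) = star u * star v) :
    ∃ t : F, t ≠ 0 ∧ (∀ u, f u = t • u) ∧ ∀ v, g v = t⁻¹ • v := by
  have e1 : star (f 1) * star (g 1) = 1 := by rw [h, star_one, mul_one]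
  have h10 : ∀ v, star (f 1) * star (g v) = star v := fun v => by rw [h, star_one, one_mul]
  generalize star (f 1) = p at e1 h10
  obtain ⟨hp, hr⟩ := norm_ne_of_mul e1
  have hg : ∀ v, star (g v) = (norm p)⁻¹ • (star p * star v) := by
    intro v
    have h2 := star_mul_mul p (star (g v))
    rw [h10 v] at h2
    rw [h2, smul_smul, inv_mul_cancel₀ hp, one_smul]
  have hf : ∀ u, star (f u) = star u * p := by
    intro u
    have h1 := h u 1
    rw [star_one, mul_one, hr, mul_smul_oct] at h1
    have h2 := mul_mul_star (star p) (star (f u))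
    rw [star_star, Oct.norm_star] at h2
    have h3 : star (f u) * star p = norm p • star u := by
      rw [← h1, smul_smul, mul_inv_cancel₀ hp, one_smul]
    rw [h3, smul_mul_oct] at h2
    have h4 := congrArg (fun z => (norm p)⁻¹ • z) h2
    simp only [smul_smul, inv_mul_cancel₀ hp, one_smul] at h4
    exact h4.symm
  have hn : ∀ x y : Oct a b c, (x * p) * y = x * (p * y) := by
    intro x y
    have h1 := h (star x) (star (p * y))
    rw [hf, hg, star_star, star_star, star_mul_mul, smul_smul, inv_mul_cancel₀ hp,
      one_smul] at h1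
    exact h1
  obtain ⟨t, ht⟩ := scal_of_nuc hn
  have hnp : norm p = t ^ 2 := by rw [ht, Oct.norm_smul, Oct.norm_one, mul_one]
  have ht0 : t ≠ 0 := by
    rintro rfl
    exact hp (by rw [hnp]; ring)
  refine ⟨t, ht0, fun u => ?_, fun v => ?_⟩
  · have h1 := congrArg star (hf u)
    rw [star_star, ht, mul_smul_oct, mul_one, star_smul_oct, star_star] at h1
    exact h1
  · have h1 := congrArg star (hg v)
    rw [star_star, hnp, ht, star_smul_oct, star_smul_oct, star_one, smul_mul_oct, one_mul,
      star_smul_oct, star_star, smul_smul] at h1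
    rw [h1]
    congr 1
    field_simp

/-- The reflection in the hyperplane orthogonal to `e`. -/
def rf (e x : Oct a b c) : Oct a b c := x - (bil x e / norm e) • e

theorem rf_eq {e : Oct a b c} (he : norm e ≠ 0) (x : Oct a b c) :
    rf e x = -((norm e)⁻¹ • (e * (star x * e))) := by
  rw [rf, mul_mul_eq, star_star, smul_sub, smul_smul, smul_smul, inv_mul_cancel₀ he, one_smul,
    bil_comm x e, neg_sub, div_eq_inv_mul]

/-- The product of two reflections of a product. -/
theorem rf_rf {e f : Oct a b c} (he : norm e ≠ 0) (hf : norm f ≠ 0) (u v : Oct a b c) :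
    rf e (rf f (star u * star v)) =
      (norm e * norm f)⁻¹ • (star ((u * f) * star e) * star (star e * (f * v))) := by
  have h1 : star (star u * star v) = v * u := by rw [star_mul, star_star, star_star]
  have h2 : star (f * ((v * u) * f)) = (star f * star u) * (star v * star f) := by
    rw [moufang, star_mul, star_mul, star_mul]
  rw [rf_eq he, rf_eq hf, h1, star_neg, star_smul_oct, h2, neg_mul, smul_mul_oct, mul_neg,
    mul_smul_oct, smul_neg, neg_neg, smul_smul, ← mul_inv, star_mul, star_mul, star_mul,
    star_mul, star_star, ← flex, ← moufang]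

end field

end Vale.Agent.P011.D4Z.H63
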