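import Vale.Agent.P011.D4Z.H493.Ev
import Vale.Agent.P011.D4Z.H63.End

/-!
Block D4Z (helper63): the end of the elimination at a bad place.
-/

set_option linter.unusedSectionVars false

namespace Vale.Agent.P011.D4Z.H63

open Vale.Agent.P011.MPQ Vale.Agent.P011.D4 Vale.Agent.P011.D4.Oct Vale.Agent.P011.D4X
open scoped ComplexConjugate

section one

variable {k : Type} [Field k] [Algebra k ℂ] {a b c : kˣ}

theorem norm_of_bil {Y : OctL ℂ a b c → OctL ℂ a b c} (hN : ∀ x y, bil (Y x) (Y y) = bil x y)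
    (x : OctL ℂ a b c) : Oct.norm (Y x) = Oct.norm x := by
  have h1 := hN x x
  rw [bil_self, bil_self] at h1
  exact mul_left_cancel₀ two_ne_zero h1

/-- The companions of the identity. -/
theorem end_one {X Y Z : OctL ℂ a b c → OctL ℂ a b c}
    (htri : ∀ x y, X (star x * star y) = star (Y x) * star (Z y))
    (hN : ∀ x y, bil (Y x) (Y y) = bil x y) (hX : ∀ x, X x = x) :
    (∀ x, Y x = x ∧ Z x = x) ∨ (∀ x, Y x = -x ∧ Z x = -x) := by
  obtain ⟨t, h0, h1, h2⟩ := comp_one (f := Y) (g := Z) (fun u v => by rw [← htri, hX])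
  have h3 : t ^ 2 = 1 := by
    have h4 := norm_of_bil hN 1
    rw [h1, Oct.norm_smul, Oct.norm_one, mul_one] at h4
    exact h4
  have h5 : (t - 1) * (t + 1) = 0 := by linear_combination h3
  have h6 : t = 1 ∨ t = -1 := by
    rcases mul_eq_zero.1 h5 with h | h
    · exact Or.inl (sub_eq_zero.1 h)
    · exact Or.inr (eq_neg_of_add_eq_zero_left h)
  rcases h6 with h | h
  · left
    intro x
    rw [h1, h2, h]
    simp
  · right
    intro x
    rw [h1, h2, h]
    simp

end one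

section fld

variable {F : Type} [Field F] [NeZero (2 : F)] {a b c : Fˣ}

/-- The companions of the product of two reflections. -/
theorem comp_refl {X Y Z : Oct a b c → Oct a b c}
    (htri : ∀ x y, X (star x * star y) = star (Y x) * star (Z y)) {u v : Oct a b c}
    (hu1 : Oct.norm u = 1) (hv1 : Oct.norm v = -1) (hX : ∀ x, X x = rf u (rf v x)) :
    ∃ t : F, ∀ x, Y x = t • ((x * v) * star u) := by
  have hu0 : Oct.norm u ≠ 0 := by rw [hu1]; exact one_ne_zero
  have hv0 : Oct.norm v ≠ 0 := by rw [hv1]; exact neg_ne_zero.2 one_ne_zero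
  have hX' : ∀ x y, star (Y x) * star (Z y) =
      -(star ((x * v) * star u) * star (star u * (v * y))) := by
    intro x y
    have h2 : (1 * (-1 : F))⁻¹ = -1 := by rw [one_mul, inv_neg, inv_one]
    rw [← htri, hX, rf_rf hu0 hv0 x y, hu1, hv1, h2, neg_one_smul]
  have i1 : ∀ x, (((x * u) * star v) * v) * star u = -x := by
    intro x
    have e1 : ((x * u) * star v) * v = Oct.norm v • (x * u) := mul_star_mul' v (x * u)
    rw [e1, hv1, neg_one_smul, neg_mul, mul_mul_star, hu1, one_smul]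
  have i2 : ∀ x, (((x * v) * star u) * u) * star v = -x := by
    intro x
    have e1 : ((x * v) * star u) * u = Oct.norm u • (x * v) := mul_star_mul' u (x * v)
    rw [e1, hu1, one_smul, mul_mul_star, hv1, neg_one_smul]
  have i3 : ∀ y, star u * (v * (star v * (u * y))) = -y := by
    intro y
    have e1 : v * (star v * (u * y)) = Oct.norm v • (u * y) := mul_star_mul v (u * y)
    rw [e1, hv1, neg_one_smul, mul_neg, star_mul_mul, hu1, one_smul]
  obtain ⟨t, t0, h1, -⟩ := comp_one (f := fun x => Y ((x * u) * star v))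
    (g := fun y => -Z (star v * (u * y))) (fun x y => by
      simp only [star_neg, mul_neg]
      rw [hX', neg_neg, i1, i3, star_neg, star_neg, neg_mul_neg])
  refine ⟨-t, fun x => ?_⟩
  have h2 := h1 (-((x * v) * star u))
  simp only [neg_mul, i2, neg_neg] at h2
  rw [h2, smul_neg, neg_smul]

theorem eq_zero_of_mul {y u v : Oct a b c} (hu1 : Oct.norm u = 1) (hv1 : Oct.norm v = -1)
    (h : (y * v) * star u = 0) : y = 0 := by
  have e1 : ((y * v) * star u) * u = Oct.norm u • (y * v) := mul_star_mul' u (y * v)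
  rw [h, zero_mul, hu1, one_smul] at e1
  have e2 : (y * v) * star v = Oct.norm v • y := mul_mul_star v y
  rw [← e1, zero_mul, hv1, neg_one_smul] at e2
  exact neg_eq_zero.1 e2.symm

end fld

section refl

variable {k L E : Type} [Field k] [Field L] [Field E] [Algebra k L] [Algebra k E] [Algebra L E]
  [IsScalarTower k L E] [NeZero (2 : E)] {ρ σ : E ≃ₐ[k] E} {ρL : L ≃ₐ[k] L} {α : E}
  {a b c : kˣ} {q : Lˣ} (H : Hy ρ σ ρL α a b c q) [Algebra k ℂ]

include H

theorem JW_JW {W : E →ₐ[k] ℂ} (hσ : ∀ x, W (σ x) = conj (W x)) (x : OctL ℂ a b c) :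
    JW W ρ α q (JW W ρ α q x) = W (rr ρ q) • x := by
  refine ev_induction (W := W) (P := fun x => JW W ρ α q (JW W ρ α q x) = W (rr ρ q) • x)
    (fun x => ?_) (fun x x' h h' => ?_) (fun t x h => ?_) x
  · rw [← ev_Jm hσ, ← ev_Jm hσ, Jm_Jm H, ev_smul]
  · rw [JW_add, JW_add, h, h', smul_add]
  · rw [JW_smul, JW_smul, h, Complex.conj_conj, smul_comm]

theorem JW_tri {W W' W'' : E →ₐ[k] ℂ} (hσ : ∀ x, W (σ x) = conj (W x))
    (hσ' : ∀ x, W' (σ x) = conj (W' x)) (hσ'' : ∀ x, W'' (σ x) = conj (W'' x))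
    (h' : W' = cmp W ρ) (h'' : W'' = cmp W' ρ) (x y : OctL ℂ a b c) :
    JW W ρ α q (star x * star y) =
      W (rr ρ q) • (star (JW W' ρ α q x) * star (JW W'' ρ α q y)) := by
  refine ev_induction (W := W') (P := fun x => JW W ρ α q (star x * star y) =
      W (rr ρ q) • (star (JW W' ρ α q x) * star (JW W'' ρ α q y)))
    (fun x => ?_) (fun x x' h h' => ?_) (fun t x h => ?_) x
  · refine ev_induction (W := W'') (P := fun y => JW W ρ α q (star (ev W' x) * star y) =
      W (rr ρ q) • (star (JW W' ρ α q (ev W' x)) * star (JW W'' ρ α q y)))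
      (fun y => ?_) (fun y y' h h' => ?_) (fun t y h => ?_) y
    · rw [← ev_tri h' h'', ← ev_Jm hσ, Jm_tri H, ev_smul, ev_tri h' h'', ev_Jm hσ', ev_Jm hσ'']
    · rw [star_add, mul_add, JW_add, JW_add, star_add, mul_add, h, h', smul_add]
    · rw [star_smul_oct, mul_smul_oct, JW_smul, JW_smul, star_smul_oct, mul_smul_oct, h,
        smul_comm]
  · rw [star_add, add_mul, JW_add, JW_add, star_add, add_mul, h, h', smul_add]
  · rw [star_smul_oct, smul_mul_oct, JW_smul, JW_smul, star_smul_oct, smul_mul_oct, h,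
      smul_comm]

theorem rr_mul3 : rr ρ q * ρ (rr ρ q) * ρ (ρ (rr ρ q)) = 1 := by
  have h := H.hj.N
  rw [rr_eq, map_mul, map_mul, map_mul, map_mul, H.ρ3]
  linear_combination ((algebraMap L E (q : L) * ρ (algebraMap L E (q : L)) *
    ρ (ρ (algebraMap L E (q : L)))) ^ 2 + algebraMap L E (q : L) * ρ (algebraMap L E (q : L)) *
    ρ (ρ (algebraMap L E (q : L))) + 1) * h

theorem JW_cyc {W W' W'' : E →ₐ[k] ℂ} (hσ : ∀ x, W (σ x) = conj (W x))
    (hσ' : ∀ x, W' (σ x) = conj (W' x)) (hσ'' : ∀ x, W'' (σ x) = conj (W'' x))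
    (h' : W' = cmp W ρ) (h'' : W'' = cmp W' ρ) (h3 : W = cmp W'' ρ) {s : ℂ}
    {u v : OctL ℂ a b c} (hu' : JW W ρ α q u = s • u) (hv' : JW W ρ α q v = s • v)
    (x : OctL ℂ a b c) :
    JW W' ρ α q ((x * v) * star u) =
      (W' (rr ρ q) * (W'' (rr ρ q) * (s * s))) • ((JW W' ρ α q x * v) * star u) := by
  have e1 : x * v = star (star v * star x) := by rw [star_mul, star_star, star_star]
  have e2 : star (star v * star (JW W' ρ α q x)) = JW W' ρ α q x * v := by
    rw [star_mul, star_star, star_star]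
  have e3 : JW W'' ρ α q (star v * star x) =
      (W'' (rr ρ q) * s) • (star v * star (JW W' ρ α q x)) := by
    rw [JW_tri H hσ'' hσ hσ' h3 h', hv', star_smul_oct, smul_mul_oct, smul_smul]
  rw [e1, JW_tri H hσ' hσ'' hσ h'' h3, hu', e3, star_smul_oct, star_smul_oct, smul_mul_oct,
    mul_smul_oct, e2, smul_smul, smul_smul]
  congr 1
  ring

theorem JW_sq {W : E →ₐ[k] ℂ} (hσ : ∀ x, W (σ x) = conj (W x)) {s : ℂ} (hsc : conj s = s)
    {u : OctL ℂ a b c} (hu0 : Oct.norm u ≠ 0) (hu' : JW W ρ α q u = s • u) :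
    s * s = W (rr ρ q) := by
  have e1 := JW_JW H hσ u
  rw [hu', JW_smul, hu', hsc, smul_smul] at e1
  have e2 : (s * s - W (rr ρ q)) • u = 0 := by rw [sub_smul, e1, sub_self]
  rcases smul_eq_zero.1 e2 with h | h
  · exact sub_eq_zero.1 h
  · exact absurd (by rw [h, Oct.norm_zero]) hu0

theorem JW_one_ne {W : E →ₐ[k] ℂ} (hσ : ∀ x, W (σ x) = conj (W x)) (h0 : W (rr ρ q) ≠ 0) :
    JW W ρ α q (1 : OctL ℂ a b c) ≠ 0 := by
  intro h7
  have h6 := JW_JW H hσ (1 : OctL ℂ a b c)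
  have h8 : JW W ρ α q (0 : OctL ℂ a b c) = 0 := by
    have := JW_smul (W := W) (ρ := ρ) (α := α) (q := q) (0 : ℂ) (0 : OctL ℂ a b c)
    rwa [zero_smul, map_zero, zero_smul] at this
  rw [h7, h8] at h6
  have h9 := congrArg Oct.norm h6
  rw [Oct.norm_zero, Oct.norm_smul, Oct.norm_one, mul_one] at h9
  exact h0 (pow_eq_zero_iff two_ne_zero |>.1 h9.symm)

/-- **The end.** A product of two reflections of signs one and minus one is not in the closure. -/
theorem end_refl (W W' W'' : E →ₐ[k] ℂ) (hσ : ∀ x, W (σ x) = conj (W x))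
    (h' : W' = cmp W ρ) (h'' : W'' = cmp W' ρ) {X Y Z : OctL ℂ a b c → OctL ℂ a b c}
    (htri : ∀ x y, X (star x * star y) = star (Y x) * star (Z y))
    (hN : ∀ x y, bil (Y x) (Y y) = bil x y)
    (hJ : ∀ x, Y (JW W' ρ α q x) = JW W' ρ α q (Y x)) {u v : OctL ℂ a b c}
    (hu : u ∈ VR W ρ α q) (hv : v ∈ VR W ρ α q) (hu1 : Oct.norm u = 1)
    (hv1 : Oct.norm v = -1) (hX : ∀ x, X x = D4Z.refl u (D4Z.refl v x)) : False := by
  have hσ' : ∀ x, W' (σ x) = conj (W' x) := by
    intro x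
    rw [h']
    change W (ρ (σ x)) = conj (W (ρ x))
    rw [← hσ, H.comm]
  have hσ'' : ∀ x, W'' (σ x) = conj (W'' x) := by
    intro x
    rw [h'']
    change W' (ρ (σ x)) = conj (W' (ρ x))
    rw [← hσ', H.comm]
  have h3 : W = cmp W'' ρ := by
    rw [h'', h']
    apply AlgHom.ext
    intro x
    change W x = W (ρ (ρ (ρ x)))
    rw [H.ρ3]
  have hu0 : Oct.norm u ≠ 0 := by rw [hu1]; exact one_ne_zero
  obtain ⟨t, hY⟩ := comp_refl htri hu1 hv1 (fun x => by rw [hX]; simp only [D4Z.refl, rf])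
  have ht : t ^ 2 = -1 := by
    have h4 := norm_of_bil hN 1
    rw [hY, Oct.norm_smul, Oct.norm_mul, Oct.norm_mul, Oct.norm_star, hu1, hv1,
      Oct.norm_one] at h4
    linear_combination -h4
  have hsc : conj ((Real.sqrt (W (algebraMap L E q * (algebraMap L E q *
    ρ (algebraMap L E q)))).re : ℝ) : ℂ) = ((Real.sqrt (W (algebraMap L E q *
      (algebraMap L E q * ρ (algebraMap L E q)))).re : ℝ) : ℂ) := Complex.conj_ofReal _
  have hs2 := JW_sq H hσ hsc hu0 hu
  have hP := JW_cyc H hσ hσ' hσ'' h' h'' h3 hu hv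
  have hc : W' (rr ρ q) * (W'' (rr ρ q) * W (rr ρ q)) = 1 := by
    rw [h'', h']
    change W (ρ (rr ρ q)) * (W (ρ (ρ (rr ρ q))) * W (rr ρ q)) = 1
    rw [← map_mul, ← map_mul, ← map_one W, ← rr_mul3 H]
    congr 1
    ring
  rw [hs2, hc] at hP
  have h0 : W' (rr ρ q) ≠ 0 := left_ne_zero_of_mul_eq_one hc
  have hJ1 := hJ 1
  rw [hY, hY, JW_smul, hP, one_smul] at hJ1
  have e3 : (t - conj t) • ((JW W' ρ α q 1 * v) * star u) = (0 : OctL ℂ a b c) := by
    rw [sub_smul, hJ1, sub_self]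
  rcases smul_eq_zero.1 e3 with h | h
  · have h5 : conj t = t := (sub_eq_zero.1 h).symm
    obtain ⟨r, hr⟩ := Complex.conj_eq_iff_real.1 h5
    rw [hr] at ht
    have h6 : r ^ 2 = -1 := by exact_mod_cast ht
    nlinarith [sq_nonneg r]
  · exact JW_one_ne H hσ' h0 (eq_zero_of_mul hu1 hv1 h)

end refl

end Vale.Agent.P011.D4Z.H63
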